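import Mathlib
import Vale.Agent.P219.Six.Exit
import Vale.Agent.P219.Aff.Geo
import Vale.Agent.P219.Aff.Scalar

/-!
# Chords: the pointwise inequality and the measurable data
-/

open MeasureTheory Set Filter Topology
open scoped ENNReal ContDiff RealInnerProductSpace

namespace Vale.Agent.P219.Aff

open Vale.Agent.P219 Vale.Agent.P219.Univ
open Vale.Agent.P219.Six
open Vale.Agent.P219.Six.Surf

noncomputable section

variable {n : ℕ} {P : Kern} {α G : ℝ} {gF : ℝ → ℝ} {g : MetricField n} {Ex Lo : Space n → Space n → Space n} {φ : Space n → ℝ} {η : ℝ}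

/-- The share with the weight extended continuously to the line. -/
def shareX (n : ℕ) (P : Kern) (α : ℝ) (gF : ℝ → ℝ) (l ε r c d : ℝ) : ℝ :=
  share n P α (Set.IccExtend zero_le_one fun t : Set.Icc (0 : ℝ) 1 => gF t) (l ^ 2 * ε) (l * r) c d

theorem shareX_eq {l ε r c d : ℝ} (hc : 0 ≤ c) (hc1 : c ≤ 1) :
    shareX n P α gF l ε r c d = share n P α gF (l ^ 2 * ε) (l * r) c d := by
  simp [shareX, share, Set.IccExtend_of_mem _ _ (show c ∈ Set.Icc (0 : ℝ) 1 from ⟨hc, hc1⟩)]

/-- The share, per unit length, of the chord through `x` in direction `v` at its end at time `t`,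
for the level `s`. -/
def half (g : MetricField n) (Ex : Space n → Space n → Space n) (φ : Space n → ℝ) (P : Kern)
    (α : ℝ) (gF : ℝ → ℝ) (l ε s t : ℝ)
    (x v : Space n) : ℝ≥0∞ :=
  if 0 < cosN g φ (Ex x (t • v)) (vel Ex x v t) ∧
      0 < cosN g φ (Ex x (exitT Ex φ s x (-v) • -v)) (vel Ex x (-v) (exitT Ex φ s x (-v))) then
    ENNReal.ofReal (shareX n P α gF l ε (t + exitT Ex φ s x (-v)) (cosN g φ (Ex x (t • v)) (vel Ex x v t))
      (cosN g φ (Ex x (exitT Ex φ s x (-v) • -v)) (vel Ex x (-v) (exitT Ex φ s x (-v)))) /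
      (t + exitT Ex φ s x (-v)))
  else 0

/-- The weighted share, as a function of the ray and the time of exit. -/
def ray (g : MetricField n) (Ex : Space n → Space n → Space n) (φ : Space n → ℝ) (k : ℝ → ℝ)
    (P : Kern) (α : ℝ) (gF : ℝ → ℝ) (l ε : ℝ) (x v : Space n) (t : ℝ) : ℝ≥0∞ :=
  if 0 < t ∧ φ x < φ (Ex x (t • v)) ∧ φ (Ex x (t • v)) < 1 ∧
      exitT Ex φ (φ (Ex x (t • v))) x v = t then
    ENNReal.ofReal |fderiv ℝ φ (Ex x (t • v)) (vel Ex x v t)| *
      (ENNReal.ofReal (k (φ (Ex x (t • v)))) * half g Ex φ P α gF l ε (φ (Ex x (t • v))) t x v)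
  else 0

/-- `ray` as a density in the second point. -/
def pairFn (g : MetricField n) (Ex Lo : Space n → Space n → Space n) (φ : Space n → ℝ)
    (k : ℝ → ℝ) (P : Kern) (α : ℝ) (gF : ℝ → ℝ) (l ε : ℝ) (x y : Space n) : ℝ≥0∞ :=
  ray g Ex φ k P α gF l ε x (‖Lo x y‖⁻¹ • Lo x y) ‖Lo x y‖ /
    ENNReal.ofReal (‖Lo x y‖ ^ (n - 1) * jac g Ex x (Lo x y))

theorem shareX_nonneg (hC : CertK n P α G gF) {l ε r c d : ℝ} (hl : 0 < l) (hε : 0 < ε) (hr : 0 ≤ r)
    (hc : 0 < c) (hd : 0 < d) (hc1 : c ≤ 1) (hd1 : d ≤ 1) : 0 ≤ shareX n P α gF l ε r c d := by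
  rw [shareX_eq hc.le hc1]
  exact share_nonneg hC (by positivity) (by positivity) hc hd hc1 hd1

theorem chord_shareX (hn : 1 ≤ n) (hC : CertK n P α G gF) {l ε r c d : ℝ} (hl : 0 < l) (hε : 0 < ε)
    (hr : 0 < r) (hc : 0 < c) (hd : 0 < d) (hc1 : c ≤ 1) (hd1 : d ≤ 1) :
    ENNReal.ofReal l ≤ ENNReal.ofReal (shareX n P α gF l ε r c d / r) +
      ENNReal.ofReal (shareX n P α gF l ε r d c / r) := by
  rw [← ENNReal.ofReal_add (div_nonneg (shareX_nonneg hC hl hε hr.le hc hd hc1 hd1) hr.le)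
    (div_nonneg (shareX_nonneg hC hl hε hr.le hd hc hd1 hc1) hr.le), ← add_div]
  refine ENNReal.ofReal_le_ofReal ((le_div_iff₀ hr).2 ?_)
  rw [shareX_eq hc.le hc1, shareX_eq hd.le hd1]
  exact chord_share hn hC (by positivity) (mul_pos hl hr) hc hd hc1 hd1

theorem measurable_shareX {β : Type*} [MeasurableSpace β] (hC : CertK n P α G gF) {l ε : ℝ}
    (hl : 0 < l) (hε : 0 < ε) {r c d : β → ℝ} (hr : Measurable r) (hc : Measurable c)
    (hd : Measurable d) : Measurable fun a => shareX n P α gF l ε (r a) (c a) (d a) := by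
  have hcomp : ∀ (F : ℝ → ℝ → ℝ), ContinuousOn (fun p : ℝ × ℝ => F p.1 p.2) (Ioi 0 ×ˢ univ) →
      ∀ v : β → ℝ, Measurable v → Measurable fun a =>
        F (Real.sqrt ((l * r a) ^ 2 + l ^ 2 * ε) ^ 2) (v a) := fun F hF v hv => by
    have hc' : Continuous fun x : ℝ × ℝ => F (Real.sqrt ((l * x.1) ^ 2 + l ^ 2 * ε) ^ 2) x.2 :=
      hF.comp_continuous (f := fun x : ℝ × ℝ => (Real.sqrt ((l * x.1) ^ 2 + l ^ 2 * ε) ^ 2, x.2))
        (by fun_prop) fun x =>
          ⟨show 0 < Real.sqrt ((l * x.1) ^ 2 + l ^ 2 * ε) ^ 2 by positivity, mem_univ _⟩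
    exact hc'.measurable.comp (hr.prodMk hv)
  have hs : Measurable fun a => Real.sqrt ((l * r a) ^ 2 + l ^ 2 * ε) := by fun_prop
  have hv1 : ∀ x : β → ℝ, Measurable x → Measurable fun a => Real.sqrt ((l * r a) ^ 2 + l ^ 2 * ε) *
      (l * r a * x a / Real.sqrt ((l * r a) ^ 2 + l ^ 2 * ε)) := fun x hx => by fun_prop
  have e0 := hC.smooth.continuousOn
  have e12 := contDiffOn_F12 hC
  have h1 := hcomp _ e0 _ (hv1 c hc)
  have h1' := hcomp _ e0 _ (hv1 d hd)
  have h2 := hcomp _ e12.1.continuousOn _ (hv1 c hc)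
  have h2' := hcomp _ e12.1.continuousOn _ (hv1 d hd)
  have h3 := hcomp _ e12.2.continuousOn _ (hv1 c hc)
  have h3' := hcomp _ e12.2.continuousOn _ (hv1 d hd)
  have h4 := h3.norm
  have h4' := h3'.norm
  simp only [Real.norm_eq_abs] at h4 h4'
  have h5 : Measurable (Set.IccExtend zero_le_one fun t : Set.Icc (0 : ℝ) 1 => gF t) :=
    (Continuous.Icc_extend' (hC.g_cont.domRestrict)).measurable
  have h6 := h5.comp hc
  simp only [shareX, share, kerSharp]
  fun_prop

theorem cosN_eq (hg : IsMetric g) {z : Space n} (hz : fderiv ℝ φ z ≠ 0) (V : Space n) :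
    g z V (unitN g φ z) = cosN g φ z V := by
  rw [cosN, eq_div_iff (gradLen_pos hg hz).ne', g_unitN hg]

theorem cosN_le_one (hg : IsMetric g) (hc : JointCharts g Ex Lo) {x v : Space n} (hv : ‖v‖ = 1)
    {t : ℝ} (hz : fderiv ℝ φ (Ex x (t • v)) ≠ 0) :
    cosN g φ (Ex x (t • v)) (vel Ex x v t) ≤ 1 := by
  have hV : gNorm g (Ex x (t • v)) (vel Ex x v t) = 1 := by
    rw [gNorm, speed_vel hg hc, hv, one_pow, Real.sqrt_one]
  rw [← cosN_eq hg hz]
  refine (le_abs_self _).trans ((abs_g_le hg _ _ _).trans ?_)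
  rw [hV, gNorm_unitN hg hz, one_mul]

theorem cosN_pos_iff (hg : IsMetric g) {z : Space n} (hz : fderiv ℝ φ z ≠ 0) (V : Space n) :
    0 < cosN g φ z V ↔ 0 < fderiv ℝ φ z V :=
  div_pos_iff_of_pos_right (gradLen_pos hg hz)

theorem window_reg (hw : RegWindow φ η) {z : Space n} {τ : ℝ} (hτ : |τ| < η / 2) (hz : φ z = τ) :
    fderiv ℝ φ z ≠ 0 :=
  hw.2.2 z (by rw [hz]; linarith [hw.1])

/-- Along almost every chord, the two shares cover `l`. -/
theorem chord_ae (hn : 1 ≤ n) (hC : CertK n P α G gF) (hg : IsMetric g) (hc : JointCharts g Ex Lo) (hd : Defining φ)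
    (hw : RegWindow φ η) {k : ℝ → ℝ} (hk : ∀ s, k s ≠ 0 → |s| < η / 2) {l ε : ℝ} (hl : 0 < l)
    (hε : 0 < ε) (x v : Space n) (hv : ‖v‖ = 1) :
    ∀ᵐ s : ℝ, s ∈ Ioo (φ x) 1 → ENNReal.ofReal (k s) * ENNReal.ofReal l ≤
      ENNReal.ofReal (k s) * half g Ex φ P α gF l ε s (exitT Ex φ s x v) x v +
        ENNReal.ofReal (k s) * half g Ex φ P α gF l ε s (exitT Ex φ s x (-v)) x (-v) := by
  have hv0 : v ≠ 0 := fun h => by rw [h, norm_zero] at hv; exact zero_ne_one hv
  have hv' : ‖-v‖ = 1 := by rw [norm_neg, hv]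
  filter_upwards [exit_transversal hc hd x v hv0,
    exit_transversal hc hd x (-v) (neg_ne_zero.2 hv0)] with s h1 h2 hs
  rcases eq_or_ne (k s) 0 with h0 | h0
  · simp [h0]
  have hsw := hk s h0
  obtain ⟨ha, hae, -⟩ := exit_spec hc hd x v hv0 hs.2 hs.1
  obtain ⟨hb, hbe, -⟩ := exit_spec hc hd x (-v) (neg_ne_zero.2 hv0) hs.2 hs.1
  have hza := window_reg hw hsw hae
  have hzb := window_reg hw hsw hbe
  have hc1 := (cosN_pos_iff hg hza _).2 (h1 hs.1 hs.2)
  have hd1 := (cosN_pos_iff hg hzb _).2 (h2 hs.1 hs.2)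
  rw [half, half, neg_neg, if_pos ⟨hc1, hd1⟩, if_pos ⟨hd1, hc1⟩, ← mul_add,
    add_comm (exitT Ex φ s x (-v))]
  exact mul_le_mul' le_rfl (chord_shareX hn hC hl hε (add_pos ha hb) hc1 hd1
    (cosN_le_one hg hc hv hza) (cosN_le_one hg hc hv' hzb))

theorem continuous_dExp (hc : JointCharts g Ex Lo) :
    Continuous fun p : Space n × Space n => fderiv ℝ (Ex p.1) p.2 :=
  (ContDiff.fderiv (f := fun (p : Space n × Space n) (u : Space n) => Ex p.1 u) (m := ∞) (n := ∞)
    (hc.smooth_exp.comp ((contDiff_fst.comp contDiff_fst).prodMk contDiff_snd))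
    contDiff_snd (by simp)).continuous

section Measurable

variable {β : Type*} [MeasurableSpace β] (hg : IsMetric g) (hc : JointCharts g Ex Lo)
  (hd : Defining φ) {xf vf : β → Space n} {sf tf : β → ℝ} (hx : Measurable xf) (hv : Measurable vf)
  (hs : Measurable sf) (ht : Measurable tf)
include hg hc hd hx hv

omit hg hd in
theorem measurable_point (ht : Measurable tf) : Measurable fun a => Ex (xf a) (tf a • vf a) := by
  have := hc.continuous_exp.measurable.comp (hx.prodMk (ht.smul hv))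
  exact this

include ht

omit hg in
theorem measurable_dphi_vel : Measurable fun a =>
    fderiv ℝ φ (Ex (xf a) (tf a • vf a)) (vel Ex (xf a) (vf a) (tf a)) := by
  have h1 : Continuous fun q : Space n × Space n × ℝ =>
      fderiv ℝ φ (Ex q.1 (q.2.2 • q.2.1)) (vel Ex q.1 q.2.1 q.2.2) := by
    have hp : Continuous fun q : Space n × Space n × ℝ => (q.1, q.2.2 • q.2.1) :=
      continuous_fst.prodMk ((continuous_snd.comp continuous_snd).smul
        (continuous_fst.comp continuous_snd))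
    exact ((hd.smooth.continuous_fderiv (by norm_num)).comp (hc.continuous_exp.comp hp)).clm_apply
      (((continuous_dExp hc).comp hp).clm_apply (continuous_fst.comp continuous_snd))
  exact h1.measurable.comp (hx.prodMk (hv.prodMk ht))

theorem measurable_cos : Measurable fun a =>
    cosN g φ (Ex (xf a) (tf a • vf a)) (vel Ex (xf a) (vf a) (tf a)) :=
  (measurable_dphi_vel hc hd hx hv ht).div
    ((gradLen_continuous hg hd.smooth).measurable.comp (measurable_point hc hx hv ht))

include hs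

omit ht in
theorem measurable_exit_comp : Measurable fun a => exitT Ex φ (sf a) (xf a) (vf a) :=
  (measurable_exitT hc hd).comp (hs.prodMk (hx.prodMk hv))

theorem measurable_half (hC : CertK n P α G gF) {l ε : ℝ} (hl : 0 < l) (hε : 0 < ε) :
    Measurable fun a => half g Ex φ P α gF l ε (sf a) (tf a) (xf a) (vf a) := by
  have hb := measurable_exit_comp hg hc hd hx hv.neg hs
  have hc1 := measurable_cos hg hc hd hx hv ht
  have hd1 := measurable_cos hg hc hd hx hv.neg hb
  have hr := ht.add hb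
  unfold half
  refine Measurable.ite ((measurableSet_lt measurable_const hc1).inter
    (measurableSet_lt measurable_const hd1)) (ENNReal.measurable_ofReal.comp ?_) measurable_const
  exact (measurable_shareX hC hl hε hr hc1 hd1).div hr

omit hs in
theorem measurable_ray (hC : CertK n P α G gF) {k : ℝ → ℝ} (hk : Continuous k) {l ε : ℝ} (hl : 0 < l)
    (hε : 0 < ε) :
    Measurable fun a => ray g Ex φ k P α gF l ε (xf a) (vf a) (tf a) := by
  have hp := hd.smooth.continuous.measurable.comp (measurable_point hc hx hv ht)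
  unfold ray
  refine Measurable.ite ((measurableSet_lt measurable_const ht).inter
    ((measurableSet_lt (hd.smooth.continuous.measurable.comp hx) hp).inter
      ((measurableSet_lt hp measurable_const).inter
        (measurableSet_eq_fun (measurable_exit_comp hg hc hd hx hv hp) ht))))
    ((ENNReal.measurable_ofReal.comp (measurable_dphi_vel hc hd hx hv ht).abs).mul
      ((ENNReal.measurable_ofReal.comp (hk.measurable.comp hp)).mul
        (measurable_half hg hc hd hx hv hp ht hC hl hε))) measurable_const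

end Measurable

theorem measurable_ray_pair (hg : IsMetric g) (hc : JointCharts g Ex Lo) (hd : Defining φ)
    (hC : CertK n P α G gF) {k : ℝ → ℝ} (hk : Continuous k) {l ε : ℝ} (hl : 0 < l) (hε : 0 < ε) {v : Space n × Space n → Space n}
    {t : Space n × Space n → ℝ} (hv : Measurable v) (ht : Measurable t) :
    Measurable fun p : Space n × Space n => ray g Ex φ k P α gF l ε p.1 (v p) (t p) :=
  measurable_ray hg hc hd measurable_fst hv ht hC hk hl hε

theorem measurable_pairFn (hg : IsMetric g) (hc : JointCharts g Ex Lo) (hd : Defining φ)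
    (hC : CertK n P α G gF) {k : ℝ → ℝ} (hk : Continuous k) {l ε : ℝ} (hl : 0 < l) (hε : 0 < ε) :
    Measurable fun p : Space n × Space n => pairFn g Ex Lo φ k P α gF l ε p.1 p.2 := by
  have hu : Measurable fun p : Space n × Space n => Lo p.1 p.2 := hc.continuous_log.measurable
  have hj : Measurable fun p : Space n × Space n => jac g Ex p.1 (Lo p.1 p.2) :=
    Measurable.comp (g := fun q : Space n × Space n => jac g Ex q.1 q.2)
      (f := fun p : Space n × Space n => (p.1, Lo p.1 p.2))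
      (continuous_jac hg hc).measurable (measurable_fst.prodMk hu)
  have h1 := measurable_ray_pair hg hc hd hC hk hl hε (hu.norm.inv.smul hu) hu.norm
  have h2 : Measurable fun p : Space n × Space n =>
      ENNReal.ofReal (‖Lo p.1 p.2‖ ^ (n - 1) * jac g Ex p.1 (Lo p.1 p.2)) :=
    ENNReal.measurable_ofReal.comp ((hu.norm.pow_const (n - 1)).mul hj)
  simp only [pairFn]
  exact h1.div h2

end

end Vale.Agent.P219.Aff
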