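import Mathlib
import Vale.Agent.P219.Aff.Switch.Pre
import Vale.Agent.P219.Aff.FirstVar

/-!
# Integrating the shares over the chords that leave through a given boundary point
-/

open MeasureTheory Set Filter Topology
open scoped ENNReal ContDiff RealInnerProductSpace

namespace Vale.Agent.P219.Aff

open Vale.Agent.P219 Vale.Agent.P219.Univ
open Vale.Agent.P219.Six
open Vale.Agent.P219.Six.Surf

noncomputable section

variable {n : ℕ} {P : Kern} {α G : ℝ} {gF : ℝ → ℝ} {g : MetricField n} {Ex Lo : Space n → Space n → Space n} {φ : Space n → ℝ} {η : ℝ}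

/-- The other end of the chord leaving `y` in direction `w`. -/
def farEnd (Ex : Space n → Space n → Space n) (φ : Space n → ℝ) (y w : Space n) : Space n :=
  Ex y (exitT Ex φ (φ y) y w • w)

/-- The cosine at `y`. -/
def cosIn (g : MetricField n) (Ex : Space n → Space n → Space n) (φ : Space n → ℝ)
    (y w : Space n) : ℝ :=
  -cosN g φ y (vel Ex y w 0)

/-- The cosine at the other end. -/
def cosFar (g : MetricField n) (Ex : Space n → Space n → Space n) (φ : Space n → ℝ)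
    (y w : Space n) : ℝ :=
  cosN g φ (farEnd Ex φ y w) (vel Ex y w (exitT Ex φ (φ y) y w))

/-- The value of the share per unit length along the chord leaving `y` in direction `w`. -/
def chordVal (g : MetricField n) (Ex : Space n → Space n → Space n) (φ : Space n → ℝ) (k : ℝ → ℝ)
    (P : Kern) (α : ℝ) (gF : ℝ → ℝ) (l ε : ℝ) (y w : Space n) : ℝ≥0∞ :=
  if 0 < cosIn g Ex φ y w ∧ 0 < cosFar g Ex φ y w then
    ENNReal.ofReal (k (φ y) * gradLen g φ y * (cosIn g Ex φ y w *
      shareX n P α gF l ε (exitT Ex φ (φ y) y w) (cosIn g Ex φ y w) (cosFar g Ex φ y w)) /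
        exitT Ex φ (φ y) y w)
  else 0

theorem reg_of_cos {z V : Space n} (h : 0 < cosN g φ z V) : fderiv ℝ φ z ≠ 0 :=
  fun h0 => by simp [cosN, h0] at h

theorem ray_le (hg : IsMetric g) (hc : JointCharts g Ex Lo) (hs : SecBound g 0) (hd : Defining φ)
    {k : ℝ → ℝ} (hk0 : ∀ s, 0 ≤ k s) {l ε : ℝ} (y w : Space n) (hw : ‖w‖ = 1) {s : ℝ}
    (hs0 : 0 < s) :
    pairFn g Ex Lo φ k P α gF l ε (Ex y (s • w)) y * ENNReal.ofReal (s ^ (n - 1) * jac g Ex y (s • w)) ≤
      (Ioo 0 (exitT Ex φ (φ y) y w)).indicator (fun _ => chordVal g Ex φ k P α gF l ε y w) s := by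
  obtain ⟨v, hv, hvdef, hpos, hvel⟩ := reverse hg hc y w hw hs0
  set x := Ex y (s • w) with hxdef
  have hw0 : w ≠ 0 := fun h => by rw [h, norm_zero] at hw; exact zero_ne_one hw
  have hv0 : v ≠ 0 := fun h => by rw [h, norm_zero] at hv; exact zero_ne_one hv
  have hn : ‖Lo x y‖ = s := by
    rw [dist_symm hg hc, hxdef, hc.left, norm_smul, hw, mul_one, Real.norm_of_nonneg hs0.le]
  have hj : jac g Ex x (Lo x y) = jac g Ex y (s • w) := by
    rw [← jac_symm hg hc y x, hxdef, hc.left]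
  have hJ : 0 < s ^ (n - 1) * jac g Ex y (s • w) :=
    mul_pos (pow_pos hs0 (n - 1)) (jac_pos hg hc hs y _)
  rw [pairFn, hn, ← hvdef, hj,
    ENNReal.div_mul_cancel (ENNReal.ofReal_pos.2 hJ).ne' ENNReal.ofReal_ne_top, ray]
  have hy : Ex x (s • v) = y := by rw [hpos, sub_self, zero_smul, hc.zero]
  have hvy : vel Ex x v s = -vel Ex y w 0 := by rw [hvel, sub_self]
  rw [hy, hvy]
  split_ifs with h
  swap
  · exact zero_le
  obtain ⟨-, hxy, hy1, hst⟩ := h
  obtain ⟨-, -, hlt⟩ := exit_spec hc hd x v hv0 hy1 hxy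
  rw [hst] at hlt
  obtain ⟨hb, hbe, hblt⟩ := exit_spec hc hd x (-v) (neg_ne_zero.2 hv0) hy1 hxy
  set b := exitT Ex φ (φ y) x (-v) with hbdef
  have hback : ∀ t : ℝ, Ex x (t • -v) = Ex y ((s + t) • w) := fun t => by
    rw [smul_neg, ← neg_smul, hpos, sub_neg_eq_add]
  have hL : exitT Ex φ (φ y) y w = s + b := by
    refine IsLeast.csInf_eq ⟨⟨add_pos hs0 hb, ?_⟩, fun t ht => ?_⟩
    · rw [← hback, hbe]
    · rcases le_or_gt t s with h1 | h1
      · have h2 := hlt (s - t) (sub_nonneg.2 h1) (by linarith [ht.1])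
        rw [hpos, sub_sub_cancel] at h2
        exact absurd ht.2 (not_le.2 h2)
      · by_contra hcon
        have h2 := hblt (t - s) (by linarith) (by linarith [not_le.1 hcon])
        rw [hback, add_sub_cancel] at h2
        exact absurd ht.2 (not_le.2 h2)
  rw [indicator_of_mem (show s ∈ Ioo 0 (exitT Ex φ (φ y) y w) from ⟨hs0, by rw [hL]; linarith⟩)]
  have hvb : vel Ex x (-v) b = vel Ex y w (s + b) := by
    have h1 := hvel (-b)
    rw [sub_neg_eq_add] at h1
    rw [vel, smul_neg, ← neg_smul, map_neg, ← neg_eq_iff_eq_neg.2 h1]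
    rfl
  have hcin : cosN g φ y (-vel Ex y w 0) = cosIn g Ex φ y w := by
    rw [cosIn, cosN, cosN, map_neg, neg_div]
  have hdfar : cosN g φ (Ex x (b • -v)) (vel Ex x (-v) b) = cosFar g Ex φ y w := by
    rw [cosFar, farEnd, hL, hback, hvb]
  rw [half, hy, hvy, hcin, ← hbdef, hdfar, chordVal]
  split_ifs with h1
  swap
  · simp
  have hgl := gradLen_pos hg (φ := φ) (x := y) (reg_of_cos (hcin.symm ▸ h1.1))
  have e : |fderiv ℝ φ y (-vel Ex y w 0)| = cosIn g Ex φ y w * gradLen g φ y := by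
    rw [← hcin, cosN, div_mul_cancel₀ _ hgl.ne', abs_of_pos]
    rw [← hcin] at h1
    exact (div_pos_iff_of_pos_right hgl).1 h1.1
  rw [e, hL, ← ENNReal.ofReal_mul (hk0 _),
    ← ENNReal.ofReal_mul (mul_nonneg h1.1.le hgl.le)]
  exact le_of_eq (congrArg ENNReal.ofReal (by ring))

/-- Integrating over the chord cancels its length. -/
theorem line_le (hg : IsMetric g) (hc : JointCharts g Ex Lo) (hs : SecBound g 0) (hd : Defining φ)
    {k : ℝ → ℝ} (hk0 : ∀ s, 0 ≤ k s) {l ε : ℝ} (y w : Space n) (hw : ‖w‖ = 1) :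
    ∫⁻ s in Ioi (0 : ℝ), pairFn g Ex Lo φ k P α gF l ε (Ex y (s • w)) y *
        ENNReal.ofReal (s ^ (n - 1) * jac g Ex y (s • w)) ≤
      chordVal g Ex φ k P α gF l ε y w * ENNReal.ofReal (exitT Ex φ (φ y) y w) := by
  refine (setLIntegral_mono' measurableSet_Ioi fun s hs0 => ray_le hg hc hs hd hk0 y w hw hs0).trans ?_
  refine (setLIntegral_le_lintegral _ _).trans (le_of_eq ?_)
  rw [lintegral_indicator_const measurableSet_Ioo, Real.volume_Ioo, sub_zero]

theorem inDir_norm (hg : IsMetric g) (hc : JointCharts g Ex Lo) (y : Space n) :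
    ‖inDir g Lo φ y‖ ≤ 1 := by
  have h1 := hc.metric_eq y (unitN g φ y) (unitN g φ y)
  rw [real_inner_self_eq_norm_sq, ← gNorm_sq hg] at h1
  rw [inDir, norm_neg]
  refine (pow_le_one_iff_of_nonneg (norm_nonneg _) two_ne_zero).1 ?_
  rw [← h1]
  exact pow_le_one₀ (gNorm_nonneg g _ _) (Surf.gNorm_unitN_le hg y)

theorem kernel_contDiffOn (hg : IsMetric g) (hc : JointCharts g Ex Lo) (hC : CertK n P α G gF)
    (hd : Defining φ) {l ε : ℝ} (hl : 0 < l) (hε : 0 < ε) (y : Space n) :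
    ContDiffOn ℝ 1 (kernel P g Lo φ l ε y) (regSet φ) := by
  obtain ⟨h1, h2⟩ := contDiffOn_kers hg hc hC hd hε (q := (y, inDir g Lo φ y, l))
    ⟨inDir_norm hg hc y, hl⟩
  refine ((contDiffOn_const (c := (1 + 2 * P.D * (l ^ 2 * ε) : ℝ))).add h1 |>.sub
    ((contDiffOn_const (c := ((n : ℝ) - 1) * l)).mul h2)).congr fun z _ => ?_
  simp only [kernel, kerF, areaKer, volKer]
  ring

/-- The gradient of the squared distance, seen from the other end. -/
theorem dpsi_swap (hg : IsMetric g) (hc : JointCharts g Ex Lo) (y z W : Space n) :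
    fderiv ℝ (psi Lo z) y W = -⟪Lo y z, fderiv ℝ (Lo y) y W⟫ := by
  rcases eq_or_ne (Lo y z) 0 with h | h
  · have h' : Lo z y = 0 := norm_eq_zero.1 (by rw [dist_symm hg hc, h, norm_zero])
    simp [dpsi_eq hc, h, h']
  · set s := ‖Lo y z‖
    have hs : 0 < s := norm_pos_iff.2 h
    set w := s⁻¹ • Lo y z with hw
    have hw1 : ‖w‖ = 1 := by
      rw [hw, norm_smul, norm_inv, Real.norm_of_nonneg hs.le]
      exact inv_mul_cancel₀ hs.ne'
    have hsw : s • w = Lo y z := by rw [hw, smul_smul, mul_inv_cancel₀ hs.ne', one_smul]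
    obtain ⟨v, -, -, hpos, hvel⟩ := reverse hg hc y w hw1 hs
    have hz : Ex y (s • w) = z := by rw [hsw, hc.right]
    rw [hz] at hpos hvel
    have hy : Ex z (s • v) = y := by rw [hpos, sub_self, zero_smul, hc.zero]
    have h1 := dpsi_ray hg hc z v s W
    rw [hy, hvel, sub_self] at h1
    rw [h1, vel, zero_smul, map_neg, neg_apply, hc.metric_eq, ← hsw, real_inner_smul_left]
    have h2 := hc.dLog_dExp y 0 w
    rw [hc.zero] at h2
    rw [h2]
    ring

/-- The far cosine at one end is the near cosine of the transposed pair. -/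
theorem farL_swap (hg : IsMetric g) (hc : JointCharts g Ex Lo) (y z : Space n) :
    farL Lo y (inDir g Lo φ y) z = fderiv ℝ (psi Lo z) y (unitN g φ y) := by
  rw [dpsi_swap hg hc, farL, inDir, inner_neg_left, real_inner_comm]

theorem kernel_pair_nonneg (hn : 1 ≤ n) (hg : IsMetric g) (hc : JointCharts g Ex Lo)
    (hs : SecBound g 0) (hC : CertK n P α G gF) {l ε : ℝ} (hl : 0 < l) (hε : 0 < ε) (y z : Space n) :
    0 ≤ kernel P g Lo φ l ε y z + kernel P g Lo φ l ε z y := by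
  have hN : ∀ x, g x (unitN g φ x) (unitN g φ x) ≤ 1 := fun x => by
    rw [← gNorm_sq hg]; exact pow_le_one₀ (gNorm_nonneg g _ _) (Surf.gNorm_unitN_le hg x)
  obtain ⟨h1, h2, h3⟩ := pole_bounds hg hc hs y (inDir g Lo φ y) z (unitN g φ z) (inDir_norm hg hc y) (hN z) l
  obtain ⟨-, -, h6⟩ := pole_bounds hg hc hs z (inDir g Lo φ z) y (unitN g φ y) (inDir_norm hg hc z) (hN y) l
  rw [← farL_swap hg hc y z, farL_swap hg hc z y, hc.psi_symm hg y z] at h6
  have := kerF_pair_nonneg hn hC (show 0 < l ^ 2 * ε by positivity)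
    (mul_nonneg (sq_nonneg l) (mul_nonneg zero_le_two (JointCharts.psi_nonneg y z))) h1 h2 h3 h6
  refine this.trans (le_of_eq ?_)
  simp only [kernel, ← farL_swap hg hc y z, farL_swap hg hc z y, hc.psi_symm hg y z]

/-- The chord value split into the kernel, the weight and a remainder. -/
theorem chordVal_le (hC : CertK n P α G gF) (hg : IsMetric g) (hc : JointCharts g Ex Lo) (hs : SecBound g 0) {k : ℝ → ℝ}
    (hk0 : ∀ s, 0 ≤ k s) {l ε : ℝ} (hl : 0 < l) (hε : 0 < ε) (y w : Space n) (hw : ‖w‖ = 1) :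
    chordVal g Ex φ k P α gF l ε y w * ENNReal.ofReal (exitT Ex φ (φ y) y w) ≤
      ENNReal.ofReal (k (φ y) * gradLen g φ y) *
        (ENNReal.ofReal (if 0 < cosIn g Ex φ y w then
            gF (cosIn g Ex φ y w) * cosIn g Ex φ y w else 0) +
          (ENNReal.ofReal (((n : ℝ) + 1) / 2 * (l * Real.sqrt ε)) +
            ENNReal.ofReal (α * l ^ (n - 1) / 4) *
            if fderiv ℝ φ y (vel Ex y w 0) < 0 ∧ 0 < fderiv ℝ φ (farEnd Ex φ y w)
                (vel Ex y w (exitT Ex φ (φ y) y w)) then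
              ENNReal.ofReal (exitT Ex φ (φ y) y w ^ (n - 1) *
                jac g Ex y (exitT Ex φ (φ y) y w • w) * (kernel P g Lo φ l ε y (farEnd Ex φ y w) +
                  kernel P g Lo φ l ε (farEnd Ex φ y w) y) /
                cosFar g Ex φ y w)
            else 0)) := by
  by_cases h : 0 < cosIn g Ex φ y w ∧ 0 < cosFar g Ex φ y w
  swap
  · rw [chordVal, if_neg h, zero_mul]; exact zero_le
  obtain ⟨hc0, hd0⟩ := h
  have hreg2 := reg_of_cos hd0
  have hreg1 : fderiv ℝ φ y ≠ 0 := fun h0 => by simp [cosIn, cosN, h0] at hc0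
  have hvis : fderiv ℝ φ y (vel Ex y w 0) < 0 ∧
      0 < fderiv ℝ φ (farEnd Ex φ y w) (vel Ex y w (exitT Ex φ (φ y) y w)) := by
    refine ⟨?_, (div_pos_iff_of_pos_right (gradLen_pos hg hreg2)).1 hd0⟩
    have h2 := hc0
    rwa [cosIn, cosN, ← neg_div, div_pos_iff_of_pos_right (gradLen_pos hg hreg1), neg_pos] at h2
  rw [chordVal, if_pos ⟨hc0, hd0⟩, if_pos hc0, if_pos hvis]
  rcases le_or_gt (exitT Ex φ (φ y) y w) 0 with hL | hL
  · simp [ENNReal.ofReal_eq_zero.2 hL]
  set L := exitT Ex φ (φ y) y w with hLdef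
  have hd1 : cosFar g Ex φ y w ≤ 1 := cosN_le_one hg hc hw hreg2
  have hc1 : cosIn g Ex φ y w ≤ 1 := by
    have h3 := cosN_le_one hg hc (x := y) (v := -w) (φ := φ) (t := 0) (by rw [norm_neg, hw])
      (by rw [zero_smul, hc.zero]; exact hreg1)
    rw [zero_smul, hc.zero] at h3
    refine le_trans (le_of_eq ?_) h3
    simp only [cosIn, cosN, vel, zero_smul, map_neg, neg_div]
  set c := cosIn g Ex φ y w
  set d := cosFar g Ex φ y w
  have hN : g (farEnd Ex φ y w) (unitN g φ (farEnd Ex φ y w)) (unitN g φ (farEnd Ex φ y w)) ≤ 1 := by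
    rw [← gNorm_sq hg]; exact pow_le_one₀ (gNorm_nonneg g _ _) (Surf.gNorm_unitN_le hg _)
  have hρ : 2 * psi Lo y (farEnd Ex φ y w) = L ^ 2 := by
    rw [farEnd, psi, hc.left, norm_smul, hw, ← hLdef, Real.norm_of_nonneg hL.le]; ring
  have hu : fderiv ℝ (psi Lo y) (farEnd Ex φ y w) (unitN g φ (farEnd Ex φ y w)) = L * d := by
    simp only [d, cosFar]
    rw [← cosN_eq hg hreg2, farEnd, dpsi_ray hg hc, ← hLdef]
  have hfar : farL Lo y (inDir g Lo φ y) (farEnd Ex φ y w) = L * c := by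
    have e : c = ⟪w, inDir g Lo φ y⟫ := by
      simp only [c, cosIn, inDir]
      rw [← cosN_eq hg hreg1, vel, zero_smul, hc.metric_eq, inner_neg_right]
      have h2 := hc.dLog_dExp y 0 w
      rw [hc.zero] at h2
      rw [h2]
    rw [farL, farEnd, hc.left, ← hLdef, real_inner_smul_right, e, real_inner_comm]
  obtain ⟨h1, h2, h3⟩ := pole_bounds hg hc hs y (inDir g Lo φ y) (farEnd Ex φ y w)
    (unitN g φ (farEnd Ex φ y w)) (inDir_norm hg hc y) hN l
  set r := l * L with hr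
  have hr0 : 0 < r := mul_pos hl hL
  have hε' : 0 < l ^ 2 * ε := by positivity
  set S := Real.sqrt (r ^ 2 + l ^ 2 * ε) with hS
  have hk := kerSharp_le hC hε' (show 0 < l ^ 2 * (2 * psi Lo y (farEnd Ex φ y w)) by
    rw [hρ]; positivity) h1 h2 h3
  rw [hρ, hu, hfar, show l ^ 2 * L ^ 2 = r ^ 2 by rw [hr]; ring, ← hS,
    show l * (L * d) = r * d by rw [hr]; ring, show l * (L * c) = r * c by rw [hr]; ring] at hk
  have hSpos : 0 < S := Real.sqrt_pos.2 (by positivity)
  have hN1 : g y (unitN g φ y) (unitN g φ y) ≤ 1 := by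
    rw [← gNorm_sq hg]; exact pow_le_one₀ (gNorm_nonneg g _ _) (Surf.gNorm_unitN_le hg _)
  have hu' : fderiv ℝ (psi Lo (farEnd Ex φ y w)) y (unitN g φ y) = L * c := by
    rw [← farL_swap hg hc, hfar]
  have hfar' : farL Lo (farEnd Ex φ y w) (inDir g Lo φ (farEnd Ex φ y w)) y = L * d := by
    rw [farL_swap hg hc, hu]
  have hρ' : 2 * psi Lo (farEnd Ex φ y w) y = L ^ 2 := by rw [hc.psi_symm hg, hρ]
  obtain ⟨h4, h5, h6⟩ := pole_bounds hg hc hs (farEnd Ex φ y w) (inDir g Lo φ (farEnd Ex φ y w)) y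
    (unitN g φ y) (inDir_norm hg hc _) hN1 l
  have hk' := kerSharp_le hC hε' (show 0 < l ^ 2 * (2 * psi Lo (farEnd Ex φ y w) y) by
    rw [hρ']; positivity) h4 h5 h6
  rw [hρ', hu', hfar', show l ^ 2 * L ^ 2 = r ^ 2 by rw [hr]; ring, ← hS,
    show l * (L * d) = r * d by rw [hr]; ring, show l * (L * c) = r * c by rw [hr]; ring] at hk'
  have hker : kerSharp ((n : ℝ) - 1) P S (r * d / S) (r * c / S) +
      kerSharp ((n : ℝ) - 1) P S (r * c / S) (r * d / S) ≤
      kernel P g Lo φ l ε y (farEnd Ex φ y w) + kernel P g Lo φ l ε (farEnd Ex φ y w) y := by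
    refine (add_le_add hk hk').trans (le_of_eq ?_)
    simp only [kernel, hρ, hρ', hu, hu', hfar, hfar', hr]
    ring_nf
  have hR : 0 ≤ kerSharp ((n : ℝ) - 1) P S (r * d / S) (r * c / S) +
      kerSharp ((n : ℝ) - 1) P S (r * c / S) (r * d / S) := by
    refine hC.ker_nonneg _ _ _ hSpos ?_ ?_ <;>
      rw [abs_of_nonneg (by positivity), div_le_one hSpos] <;>
      exact (mul_le_of_le_one_right hr0.le (by assumption)).trans
        (Real.le_sqrt_of_sq_le (by linarith))
  have hJ := jac_ge_one hg hc hs y (L • w)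
  have hα := hC.alpha_pos
  have hgc := hC.g_nonneg c ⟨hc0.le, hc1⟩
  have hK0 : 0 ≤ kernel P g Lo φ l ε y (farEnd Ex φ y w) +
      kernel P g Lo φ l ε (farEnd Ex φ y w) y := hR.trans hker
  have hJ0 : 0 ≤ jac g Ex y (L • w) := zero_le_one.trans hJ
  rw [← ENNReal.ofReal_mul' hL.le, div_mul_cancel₀ _ hL.ne']
  have hgl := gradLen_nonneg g φ y
  rw [← ENNReal.ofReal_mul (by positivity),
    ← ENNReal.ofReal_add (by positivity) (by positivity),
    ← ENNReal.ofReal_add (by positivity) (by positivity),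
    ← ENNReal.ofReal_mul (mul_nonneg (hk0 _) hgl)]
  refine ENNReal.ofReal_le_ofReal (mul_le_mul_of_nonneg_left ?_ (mul_nonneg (hk0 _) hgl))
  set R := kerSharp ((n : ℝ) - 1) P S (r * d / S) (r * c / S) +
    kerSharp ((n : ℝ) - 1) P S (r * c / S) (r * d / S)
  have hsq : Real.sqrt (l ^ 2 * ε) = l * Real.sqrt ε := by
    rw [Real.sqrt_mul (sq_nonneg l), Real.sqrt_sq hl.le]
  have e : c * shareX n P α gF l ε L c d = α * l ^ (n - 1) / 4 * (L ^ (n - 1) * R / d) + gF c * c +
      c * (((n : ℝ) + 1) / 2 * (l * Real.sqrt ε)) := by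
    rw [shareX_eq hc0.le hc1, share, hsq, ← hr, ← hS]
    rw [show r ^ (n - 1) = l ^ (n - 1) * L ^ (n - 1) by rw [hr, mul_pow]]
    simp only [R]
    field_simp
  have h4 : L ^ (n - 1) * R / d ≤
      L ^ (n - 1) * jac g Ex y (L • w) * (kernel P g Lo φ l ε y (farEnd Ex φ y w) +
        kernel P g Lo φ l ε (farEnd Ex φ y w) y) / d := by
    refine div_le_div_of_nonneg_right (mul_le_mul ?_ hker hR (by positivity)) hd0.le
    exact le_mul_of_one_le_right (by positivity) hJ
  have h7 : c * (((n : ℝ) + 1) / 2 * (l * Real.sqrt ε)) ≤ ((n : ℝ) + 1) / 2 * (l * Real.sqrt ε) :=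
    mul_le_of_le_one_left (by positivity) hc1
  have h8 := mul_le_mul_of_nonneg_left h4 (show 0 ≤ α * l ^ (n - 1) / 4 by positivity)
  rw [e]
  linarith

end

end Vale.Agent.P219.Aff
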